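import Vale.Agent.P116.AD.Spec2
import Vale.Agent.P116.AD.H720.Evt
import Vale.Agent.P116.KB.OscAPI
import Vale.Agent.P116.Cl.H766.Lev

/-!
# P116, block [7], row 7-SEL: the random choice for honest functions (helper179)

`aE`, `bE` = the end values; `row_sel : RowSel`.
-/

open Set Filter Topology Metric MeasureTheory

namespace Vale.Agent.P116.AD.H179

open H906
open KB720 (cell un clo chi bdc Tk Flat)
open KB (Hon Zs oscS oscC EI BdK)

variable {K : Set ℂ} {u : ℂ → ℝ} {z : ℂ}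

/-! ### the end values -/

lemma ne_im (hK : IsCompact K) (hz : z ∈ K) (u : ℂ → ℝ) (n : ℕ) :
    (u '' (nd K n z \ K)).Nonempty := by
  obtain ⟨y, hy, hyK⟩ := Cl.H766.nd_diff_nonempty hK hz n
  exact ⟨u y, y, ⟨hy, hyK⟩, rfl⟩

lemma mono_lo (hK : IsCompact K) (hb : BdK K u) (hz : z ∈ K) :
    Monotone fun n => sInf (u '' (nd K n z \ K)) := by
  intro m n h
  exact csInf_le_csInf (hb.nd m z).below (ne_im hK hz u n)
    (image_mono (sdiff_subset_sdiff_left (nd_anti h)))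

lemma anti_hi (hK : IsCompact K) (hb : BdK K u) (hz : z ∈ K) :
    Antitone fun n => sSup (u '' (nd K n z \ K)) := by
  intro m n h
  exact csSup_le_csSup (hb.nd m z).above (ne_im hK hz u n)
    (image_mono (sdiff_subset_sdiff_left (nd_anti h)))

lemma lo_le_hi (hK : IsCompact K) (hb : BdK K u) (hz : z ∈ K) (n m : ℕ) :
    sInf (u '' (nd K n z \ K)) ≤ sSup (u '' (nd K m z \ K)) := by
  have h1 := mono_lo hK hb hz (le_max_left n m)
  have h2 := anti_hi hK hb hz (le_max_right n m)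
  have h3 : sInf (u '' (nd K (max n m) z \ K)) ≤ sSup (u '' (nd K (max n m) z \ K)) :=
    csInf_le_csSup (ne_im hK hz u _) (hb.nd _ z).below (hb.nd _ z).above
  exact h1.trans (h3.trans h2)

lemma bdd_lo (hK : IsCompact K) (hb : BdK K u) (hz : z ∈ K) :
    BddAbove (range fun n => sInf (u '' (nd K n z \ K))) := by
  refine ⟨sSup (u '' (nd K 0 z \ K)), ?_⟩
  rintro _ ⟨n, rfl⟩
  exact lo_le_hi hK hb hz n 0

lemma bdd_hi (hK : IsCompact K) (hb : BdK K u) (hz : z ∈ K) :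
    BddBelow (range fun n => sSup (u '' (nd K n z \ K))) := by
  refine ⟨sInf (u '' (nd K 0 z \ K)), ?_⟩
  rintro _ ⟨n, rfl⟩
  exact lo_le_hi hK hb hz 0 n

lemma tendsto_lo (hK : IsCompact K) (hb : BdK K u) (hz : z ∈ K) :
    Tendsto (fun n => sInf (u '' (nd K n z \ K))) atTop (𝓝 (aE K u z)) :=
  tendsto_atTop_ciSup (mono_lo hK hb hz) (bdd_lo hK hb hz)

lemma tendsto_hi (hK : IsCompact K) (hb : BdK K u) (hz : z ∈ K) :
    Tendsto (fun n => sSup (u '' (nd K n z \ K))) atTop (𝓝 (bE K u z)) :=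
  tendsto_atTop_ciInf (anti_hi hK hb hz) (bdd_hi hK hb hz)

lemma lo_le_aE (hK : IsCompact K) (hb : BdK K u) (hz : z ∈ K) (n : ℕ) :
    sInf (u '' (nd K n z \ K)) ≤ aE K u z := le_ciSup (bdd_lo hK hb hz) n

lemma bE_le_hi (hK : IsCompact K) (hb : BdK K u) (hz : z ∈ K) (n : ℕ) :
    bE K u z ≤ sSup (u '' (nd K n z \ K)) := ciInf_le (bdd_hi hK hb hz) n

lemma aE_le_bE (hK : IsCompact K) (hb : BdK K u) (hz : z ∈ K) : aE K u z ≤ bE K u z :=
  ciSup_le fun n => le_ciInf fun m => lo_le_hi hK hb hz n m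

/-- the oscillation at the end is the length of the interval of the end values -/
lemma oscC_eq (hK : IsCompact K) (hb : BdK K u) (hz : z ∈ K) :
    oscC K u (connectedComponentIn K z) = bE K u z - aE K u z :=
  tendsto_nhds_unique (KB.tendsto_oscC_nd hb hz) ((tendsto_hi hK hb hz).sub (tendsto_lo hK hb hz))

lemma nd_congr {y : ℂ} (hz : z ∈ K) (hy : y ∈ K)
    (h : connectedComponentIn K y = connectedComponentIn K z) (n : ℕ) : nd K n y = nd K n z := by
  rw [← KB.ndC_nd hy n, ← KB.ndC_nd hz n, h]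

lemma aE_congr {y : ℂ} (u : ℂ → ℝ) (hz : z ∈ K) (hy : y ∈ K)
    (h : connectedComponentIn K y = connectedComponentIn K z) : aE K u y = aE K u z := by
  unfold aE
  simp only [nd_congr hz hy h]

lemma bE_congr {y : ℂ} (u : ℂ → ℝ) (hz : z ∈ K) (hy : y ∈ K)
    (h : connectedComponentIn K y = connectedComponentIn K z) : bE K u y = bE K u z := by
  unfold bE
  simp only [nd_congr hz hy h]

/-- the end values are in the end interval -/
lemma Icc_sub_EI (hK : IsCompact K) (hb : BdK K u) (hz : z ∈ K) :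
    Icc (aE K u z) (bE K u z) ⊆ EI K u z := by
  rintro s ⟨h1, h2⟩
  constructor
  · rintro (h | ⟨-, n, t', ht, h⟩)
    · exact h.1 hz
    · have h3 : t' ≤ sInf (u '' (nd K n z \ K)) := by
        refine le_csInf (ne_im hK hz u n) ?_
        rintro _ ⟨y, hy, rfl⟩
        exact h y hy.1 hy.2
      have h4 := lo_le_aE hK hb hz n
      linarith
  · rintro (h | ⟨-, n, t', ht, h⟩)
    · exact h.1 hz
    · have h3 : sSup (u '' (nd K n z \ K)) ≤ -t' := by
        refine csSup_le (ne_im hK hz u n) ?_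
        rintro _ ⟨y, hy, rfl⟩
        have := h y hy.1 hy.2
        linarith
      have h4 := bE_le_hi hK hb hz n
      linarith

/-- row 7-END1 -/
theorem row_end1 : RowEnd1 := by
  intro K u hK _ _ hb z hz
  refine ⟨aE_le_bE hK hb hz, fun n y hy hyK => ?_, fun ε hε => ?_, fun y hy h =>
    ⟨aE_congr u hz hy h, bE_congr u hz hy h⟩⟩
  · exact ⟨csInf_le (KB.BdK.nd hb n z).below ⟨y, ⟨hy, hyK⟩, rfl⟩,
      le_csSup (KB.BdK.nd hb n z).above ⟨y, ⟨hy, hyK⟩, rfl⟩⟩
  · have h1 := (tendsto_lo hK hb hz).eventually (lt_mem_nhds (show aE K u z - ε < aE K u z by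
      linarith))
    have h2 := (tendsto_hi hK hb hz).eventually (gt_mem_nhds (show bE K u z < bE K u z + ε by
      linarith))
    obtain ⟨m, hm⟩ := eventually_atTop.1 (h1.and h2)
    exact ⟨m, fun n hn => ⟨(hm n hn).1.le, (hm n hn).2.le⟩⟩

/-! ### the row -/

/-- **ROW 7-SEL** -/
theorem row_sel : RowSel := by
  classical
  intro ι _ _
  obtain ⟨m, hm⟩ : ∃ m : ℝ, m = ((Fintype.card ι : ℕ) : ℝ) := ⟨_, rfl⟩
  have hm0 : 0 ≤ m := by rw [hm]; positivity
  refine ⟨2 * m ^ 2, by positivity, ?_⟩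
  intro K n x u r hK hf hx hH hZ F V A hV hA
  set w : Set ℂ := nd K n x with hw
  have hwc : IsCompact w := isCompact_nd hK n x
  have hfr : Disjoint (frontier w) K := frontier_nd_disjoint n x
  have hbd : ∀ i, BdK K (u i) := fun i => (hH i).bdK
  have hsub : K ∩ w ⊆ interior w := H720.inter_subset_interior hfr
  -- the package
  obtain ⟨d₀, hd, D, hD1, hD2, hD3, hD4, hDA, Bd, hDB⟩ := KB720.package (K := K) (w := w) (u := u)
    (ρ := r) (hK.inter hwc) hsub (fun i => (hH i).rc.mono fun z hz => hz.2)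
    (fun i => H720.maj_of_ugr (hH i).maj) (fun i => H720.fin_of_hon hwc (hH i))
  have hBd0 : 0 ≤ Bd := by simpa using hDB 0 ∅ (by simp)
  refine ⟨d₀, D, Bd, hd, hBd0, hD2, hD3, hD4, ?_⟩
  intro h hh
  -- the ends
  have hcho : ∀ c : {c : Set ℂ // c ∈ comps K ∧ c ⊆ w}, ∃ z, z ∈ K ∧ z ∈ c.1 ∧
      connectedComponentIn K z = c.1 := by
    rintro ⟨c, ⟨z, hz, rfl⟩, hcw⟩
    exact ⟨z, hz, mem_connectedComponentIn hz, rfl⟩
  choose pt hptK hptc hpteq using hcho
  have hosc : ∀ (c : {c : Set ℂ // c ∈ comps K ∧ c ⊆ w}) i,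
      oscC K (u i) c.1 = bE K (u i) (pt c) - aE K (u i) (pt c) := by
    intro c i
    rw [← oscC_eq hK (hbd i) (hptK c), hpteq c]
  -- sums
  have hVm : ∀ J : Finset {c : Set ℂ // c ∈ comps K ∧ c ⊆ w}, Disjoint J (F.subtype _) →
      ∑ c ∈ J, (∑ i, (bE K (u i) (pt c) - aE K (u i) (pt c))) ^ 2 ≤ m ^ 2 * V := by
    intro J hJ
    have h1 : ∀ i, ∑ c ∈ J, oscC K (u i) c.1 ^ 2 ≤ V := by
      intro i
      have := hV i (J.map (Function.Embedding.subtype _)) (by
        intro c hc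
        obtain ⟨e, he, rfl⟩ := Finset.mem_map.1 hc
        refine ⟨e.2.1, e.2.2, fun heF => ?_⟩
        exact Finset.disjoint_left.1 hJ he (Finset.mem_subtype.2 heF))
      rwa [Finset.sum_map] at this
    calc ∑ c ∈ J, (∑ i, (bE K (u i) (pt c) - aE K (u i) (pt c))) ^ 2
        ≤ ∑ c ∈ J, m * ∑ i, oscC K (u i) c.1 ^ 2 := by
          refine Finset.sum_le_sum fun c _ => ?_
          have h2 := sq_sum_le_card_mul_sum_sq (s := (Finset.univ : Finset ι))
            (f := fun i => bE K (u i) (pt c) - aE K (u i) (pt c))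
          refine h2.trans (le_of_eq ?_)
          rw [Finset.card_univ, ← hm]
          congr 1
          exact Finset.sum_congr rfl fun i _ => by rw [hosc c i]
      _ = m * ∑ i, ∑ c ∈ J, oscC K (u i) c.1 ^ 2 := by
          rw [← Finset.mul_sum, Finset.sum_comm]
      _ ≤ m * ∑ _i : ι, V := by
          gcongr with i _
          exact h1 i
      _ = m ^ 2 * V := by
          rw [Finset.sum_const, Finset.card_univ, nsmul_eq_mul, ← hm]
          ring
  have hAm : m * (2 * ∑ i, (∫⁻ z in w \ K, (ENNReal.ofReal (r i z ^ 2) + 1)).toReal) ≤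
      2 * m ^ 2 * A := by
    calc m * (2 * ∑ i, (∫⁻ z in w \ K, (ENNReal.ofReal (r i z ^ 2) + 1)).toReal)
        ≤ m * (2 * ∑ _i : ι, A) := by
          gcongr with i _
          exact hA i
      _ = 2 * m ^ 2 * A := by
          rw [Finset.sum_const, Finset.card_univ, nsmul_eq_mul, ← hm]
          ring
  -- the cells
  have hp : ∀ k : ℕ, 0 ≤ d₀ / 2 ^ k := fun k => by positivity
  have hT : ∀ k, ∀ v ∈ Tk K r d₀ D k, ∀ i, ContinuousOn (u i) (cell (d₀ / 2 ^ k) v) :=
    fun k v hv i => (hH i).cont.mono fun z hz => (hv.1 hz).2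
  have hB : ∀ k, ∀ v ∈ bdc d₀ (D : Set (ℤ × ℤ)) k, ∀ i,
      ContinuousOn (u i) (cell (d₀ / 2 ^ k) v) :=
    fun k v hv i => (hH i).cont.mono (H720.cell_bdc hd hD4 hv)
  have hfT := KB720.finite_Tk K r hd D
  have hfB := KB720.finite_bdc hd D
  obtain ⟨s, -, -, b, hb, hk⟩ := KB.Grid841.sel (ι := ι) hh
    (E := {c : Set ℂ // c ∈ comps K ∧ c ⊆ w}) (fun c i => aE K (u i) (pt c))
    (fun c i => bE K (u i) (pt c)) (fun c i => aE_le_bE hK (hbd i) (hptK c)) (F.subtype _) hVm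
    (fun i j => Zs K w (u i) (u j)) hZ
    (by
      rintro c i j hij hz ⟨q1, q2⟩ ⟨hq1, hq2⟩
      refine ⟨pt c, hptK c, c.2.2 (hptc c), ?_, Icc_sub_EI hK (hbd i) (hptK c) hq1,
        Icc_sub_EI hK (hbd j) (hptK c) hq2⟩
      rintro ⟨h1, h2⟩
      rw [oscC_eq hK (hbd i) (hptK c)] at h1
      rw [oscC_eq hK (hbd j) (hptK c)] at h2
      rcases hz with hz | hz
      · linarith
      · linarith)
    (fun k => (hfT k).toFinset) (fun k v i => clo (u i) (d₀ / 2 ^ k) v)
    (fun k v i => chi (u i) (d₀ / 2 ^ k) v)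
    (fun k v hv i => KB720.clo_le_chi (hp k) (hT k v ((hfT k).mem_toFinset.1 hv) i))
    (A := 2 * m ^ 2 * A)
    (fun k => by
      rw [← hm] at hDA
      refine le_trans (le_of_eq ?_) ((hDA k (hfT k).toFinset
        (fun v hv => (hfT k).mem_toFinset.1 hv)).trans hAm)
      refine Finset.sum_congr rfl fun v hv => Finset.sum_congr rfl fun i _ =>
        Finset.sum_congr rfl fun j _ => ?_
      rw [KB720.chi_sub_clo (hT k v ((hfT k).mem_toFinset.1 hv) i),
        KB720.chi_sub_clo (hT k v ((hfT k).mem_toFinset.1 hv) j)])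
    (fun k => (hfB k).toFinset) (fun k v i => clo (u i) (d₀ / 2 ^ k) v)
    (fun k v i => chi (u i) (d₀ / 2 ^ k) v)
    (fun k v hv i => KB720.clo_le_chi (hp k) (hB k v ((hfB k).mem_toFinset.1 hv) i))
    (Bd := Bd)
    (fun k => by
      refine le_trans (le_of_eq ?_) (hDB k (hfB k).toFinset
        (fun v hv => (hfB k).mem_toFinset.1 hv))
      refine Finset.sum_congr rfl fun v hv => Finset.sum_congr rfl fun i _ => ?_
      rw [KB720.chi_sub_clo (hB k v ((hfB k).mem_toFinset.1 hv) i)])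
  refine ⟨s, b.map (Function.Embedding.subtype _), ?_, ?_, ?_⟩
  · intro c hc
    obtain ⟨e, he, rfl⟩ := Finset.mem_map.1 hc
    exact e.2
  · rintro z ⟨hzK, hzw⟩ hbad
    have hcw : connectedComponentIn K z ⊆ w := by
      have h1 := KB.comp_sub_ndC (K := K) (c := connectedComponentIn K z) ⟨z, hzK, rfl⟩ n
      rw [KB.ndC_nd hzK, nd_eq hzw] at h1
      exact h1
    refine Finset.mem_map.2 ⟨⟨connectedComponentIn K z, ⟨z, hzK, rfl⟩, hcw⟩, ?_, rfl⟩
    rw [hb]
    have h2 := hpteq ⟨connectedComponentIn K z, ⟨z, hzK, rfl⟩, hcw⟩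
    have h3 := hptK ⟨connectedComponentIn K z, ⟨z, hzK, rfl⟩, hcw⟩
    have h4 : (fun i => aE K (u i) (pt ⟨connectedComponentIn K z, ⟨z, hzK, rfl⟩, hcw⟩)) =
        fun i => aE K (u i) z := funext fun i => aE_congr (u i) hzK h3 h2
    have h5 : (fun i => bE K (u i) (pt ⟨connectedComponentIn K z, ⟨z, hzK, rfl⟩, hcw⟩)) =
        fun i => bE K (u i) z := funext fun i => bE_congr (u i) hzK h3 h2
    rw [h4, h5]
    exact hbad
  · refine hk.mono ?_
    rintro k ⟨y, z, hy, hz, hle⟩ TT BB hTT hBB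
    have e1 : {v : ℤ × ℤ | v ∈ TT ∧ KB.H984.two h s (fun i => clo (u i) (d₀ / 2 ^ k) v)
        (fun i => chi (u i) (d₀ / 2 ^ k) v)} = (y : Set (ℤ × ℤ)) := by
      ext v
      rw [Finset.mem_coe, hy v, (hfT k).mem_toFinset, ← hTT v]
      rfl
    have e2 : {v : ℤ × ℤ | v ∈ BB ∧ ∃ i, KB.H984.hitc h (s i) (clo (u i) (d₀ / 2 ^ k) v)
        (chi (u i) (d₀ / 2 ^ k) v)} = (z : Set (ℤ × ℤ)) := by
      ext v
      rw [Finset.mem_coe, hz v, (hfB k).mem_toFinset, ← hBB v]
      rfl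
    rw [e1, e2, Set.ncard_coe_finset, Set.ncard_coe_finset, Finset.card_map]
    have hcF : ((F.subtype fun c => c ∈ comps K ∧ c ⊆ w).card : ℝ) ≤ F.card := by
      rw [Finset.card_subtype]
      exact_mod_cast Finset.card_filter_le _ _
    have hVA : m ^ 2 * V + 2 * m ^ 2 * A ≤ 2 * m ^ 2 * (V + A) := by
      have : 0 ≤ m ^ 2 * V := by
        have := hVm ∅ (Finset.disjoint_empty_left _)
        simpa using this
      linarith
    have h6 : (m ^ 2 * V + 2 * m ^ 2 * A) / h ^ 2 ≤ 2 * m ^ 2 * (V + A) / h ^ 2 := by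
      gcongr
    linarith

end Vale.Agent.P116.AD.H179
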